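import Vale.Agent.P325.Star.Gad

/-!
# A gadget on the functions of three bits: definitions and finite checks

A number `v < 128` stands for the function on the eight points `0, ..., 7` of the cube of three
bits with value `0` at the point `0` and value the bit `i - 1` of `v` at the point `i > 0`.
-/

namespace Vale.Agent.P325.H844.Cube

open Finset Vale.Agent.P325.Star

/-- The number of ones among the first seven bits. -/
def pc (n : ℕ) : ℕ :=
  n % 2 + n / 2 % 2 + n / 4 % 2 + n / 8 % 2 + n / 16 % 2 + n / 32 % 2 + n / 64 % 2

/-- The linear functions. -/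
def cw (k : Fin 8) : Fin 128 := ![0, 85, 102, 51, 120, 45, 30, 75] k

/-- The function is linear. -/
def isC (v : Fin 128) : Bool :=
  v = 0 || v = 85 || v = 102 || v = 51 || v = 120 || v = 45 || v = 30 || v = 75

/-- The type: `0` for linear functions, `1` for the functions at distance one of a linear function
or of the complement of one, `2` for the others. -/
def ty (v : Fin 128) : ℕ := if isC v then 0 else if pc v % 2 = 1 then 1 else 2

/-- Change the value at one point (the point `p + 1`, or `0` for `p = 7`; in the last case take
the complement after that). -/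
def nb (v : Fin 128) (p : Fin 8) : Fin 128 :=
  if p = 7 then Fin.ofNat 128 (127 - v) else Fin.ofNat 128 (v ^^^ (2 ^ (p : ℕ)))

/-- The sign of `nb`. -/
def sg (p : Fin 8) : F := if p = 7 then 1 else 0

/-- The multiplicity of an edge. -/
def wt (v : Fin 128) (p : Fin 8) : ℕ :=
  if ty v = 1 then (if ty (nb v p) = 0 then 28 else 5) else 0

/-- The linear function of a number. -/
def tl (v : Fin 128) (i : Fin 3) : F :=
  if (v : ℕ) / (if i = 0 then 1 else if i = 1 then 2 else 8) % 2 = 1 then 1 else 0

/-- The distance of `v` to the function `u`, or to the complement of `u`. -/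
def dd (v u : Fin 128) (e : F) : ℕ :=
  if e = 0 then pc ((v : ℕ) ^^^ u) else 8 - pc ((v : ℕ) ^^^ u)

/-- The share of the end of type `1` (at distance `a` of the label) of an edge to a vertex of type
`2` (at distance `b` of the label). -/
def shr (a b : ℕ) : ℕ :=
  if a = 3 then (if b = 2 then 60 else 39) else
  if a = 5 then (if b = 4 then 51 else 44) else
  if a = 7 then 48 else 0

theorem nb_nb : ∀ v p, nb (nb v p) p = v := by decide

theorem ty_nb : ∀ v p, ty v = 2 → ty (nb v p) = 1 := by decide

theorem ty_nb_one : ∀ v p, ty v = 1 → ty (nb v p) ≠ 1 := by decide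

theorem isC_iff : ∀ v, isC v = true → ∃ k, v = cw k := by decide

theorem isC_cw : ∀ k, isC (cw k) = true := by decide

theorem tl_inj : ∀ k k', tl (cw k) = tl (cw k') → k = k' := by decide

theorem cw_inj : ∀ k k', cw k = cw k' → k = k' := by decide

set_option maxRecDepth 100000 in
theorem sum_wt : ∀ p, ∑ v, wt v p = 504 := by decide

set_option maxRecDepth 100000 in
theorem sum_one : ∑ v, (if ty v = 1 then 336 else 0) = 64 * 336 := by decide

set_option maxRecDepth 100000 in
theorem sum_two : ∑ v, (if ty v = 2 then 120 else 0) = 56 * 120 := by decide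

theorem shr_le (a b : ℕ) : shr a b ≤ 60 := by
  unfold shr
  split_ifs <;> norm_num

theorem loc_none : ∀ v, ty v = 1 → ∑ p, (if ty (nb v p) = 0 then 0 else 45) ≤ 336 := by decide

set_option maxRecDepth 100000 in
theorem loc_one : ∀ v, ty v = 1 → ∀ k e, ∑ p, (if ty (nb v p) = 0 then
    (if nb v p = cw k ∧ sg p = e then 336 else 0) else
    shr (dd v (cw k) e) (dd (nb v p) (cw k) (e + sg p))) ≤ 336 := by decide

set_option maxRecDepth 100000 in
theorem loc_two : ∀ v, ty v = 2 → ∀ k e,
    ∑ p, (60 - shr (dd (nb v p) (cw k) (e + sg p)) (dd v (cw k) e)) ≤ 120 := by decide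

end Vale.Agent.P325.H844.Cube
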