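import Vale.Agent.P325.H844.Cube
import Vale.Agent.P325.H111.GadC

/-!
# A gadget on the functions of three bits: soundness
-/

namespace Vale.Agent.P325.H844.Cube

open Finset Vale.Agent.P325.Star

/-- The vertex of the gadget. -/
def vx (v : Fin 128) : (Fin 3 → F) ⊕ Fin 128 := if isC v then Sum.inl (tl v) else Sum.inr v

/-- The gadget: linear functions are terminals, edges join the functions which differ at exactly
one point. -/
def cube : Gad where
  s := 3
  a := 128
  E := (List.finRange 128).flatMap fun v => (List.finRange 8).flatMap fun p =>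
    List.replicate (wt v p) (vx v, vx (nb v p), sg p)

theorem length_cube : cube.E.length = 4032 := by
  have h1 : cube.E.length = ∑ v, ∑ p, wt v p := by
    simp only [cube, List.length_flatMap, List.length_replicate, Fin.sum_univ_def]
  rw [h1, sum_comm, sum_congr rfl fun p _ => sum_wt p]
  simp

theorem ite_decide (P : Prop) [Decidable P] (n : ℕ) :
    (if decide P = true then n else 0) = if P then n else 0 := by
  by_cases h : P <;> simp [h]

theorem num_cube {W : Type} [AddCommGroup W] [Module F W] [DecidableEq W] (c : W)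
    (τ : (Fin 3 → F) → W) (g : Fin 128 → W) :
    cube.num c τ g = ∑ v, ∑ p,
      if Sum.elim τ g (vx v) + Sum.elim τ g (vx (nb v p)) = sg p • c then wt v p else 0 := by
  show List.countP _ cube.E = _
  simp only [cube, List.countP_flatMap, List.countP_replicate, Fin.sum_univ_def,
    Function.comp_def]
  refine congrArg List.sum (List.map_congr_left fun v _ =>
    congrArg List.sum (List.map_congr_left fun p _ => ?_))
  exact ite_decide _ _

theorem ty_zero_iff (v : Fin 128) : ty v = 0 ↔ isC v = true := by
  unfold ty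
  split_ifs <;> simp_all

section No

variable {W : Type} [AddCommGroup W] [Module F W] [DecidableEq W] (c : W) (hc : c ≠ 0)
  (G : Fin 128 → W)
  (hG : ∀ k k', k ≠ k' → G (cw k') ≠ G (cw k) ∧ G (cw k') ≠ G (cw k) + c)

include hc hG in
theorem uniq (x y : Fin 8 × F) (h : G (cw x.1) + x.2 • c = G (cw y.1) + y.2 • c) : x = y := by
  obtain ⟨k, e⟩ := x
  obtain ⟨k', e'⟩ := y
  have hF : ∀ e : F, e = 0 ∨ e = 1 := by decide
  simp only at h
  by_cases hk : k = k'
  · subst hk
    have h1 : e • c = e' • c := add_left_cancel h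
    rcases hF e with he | he <;> rcases hF e' with he' | he' <;> subst he <;> subst he' <;>
      simp_all
  · exfalso
    have h1 := hG k k' hk
    have h2 := H111.add_self_W c
    rcases hF e with he | he <;> rcases hF e' with he' | he' <;> subst he <;> subst he'
    · simp only [zero_smul, add_zero] at h
      exact h1.1 h.symm
    · simp only [zero_smul, add_zero, one_smul] at h
      refine h1.2 ?_
      rw [h, add_assoc, h2, add_zero]
    · simp only [zero_smul, add_zero, one_smul] at h
      exact h1.2 h.symm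
    · simp only [one_smul, add_left_inj] at h
      exact h1.1 h.symm

open Classical in
/-- The label of a vertex, if it is the label of a terminal up to the direction. -/
noncomputable def st (v : Fin 128) : Option (Fin 8 × F) :=
  if h : ∃ x : Fin 8 × F, G v = G (cw x.1) + x.2 • c then some h.choose else none

include hc hG in
theorem st_iff (v : Fin 128) (x : Fin 8 × F) :
    st c G v = some x ↔ G v = G (cw x.1) + x.2 • c := by
  unfold st
  constructor
  · intro h
    split_ifs at h with h1
    · rw [← Option.some.inj h]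
      exact h1.choose_spec
  · intro h
    have h1 : ∃ x : Fin 8 × F, G v = G (cw x.1) + x.2 • c := ⟨x, h⟩
    rw [dif_pos h1]
    congr 1
    apply uniq c hc G hG
    rw [← h1.choose_spec, ← h]

/-- The edge is satisfied. -/
def Sat (v : Fin 128) (p : Fin 8) : Prop := G v + G (nb v p) = sg p • c

theorem Sat.eq {v : Fin 128} {p : Fin 8} (h : Sat c G v p) : G (nb v p) = G v + sg p • c := by
  unfold Sat at h
  rw [← h, ← add_assoc, H111.add_self_W, zero_add]

include hc hG in
theorem Sat.st {v : Fin 128} {p : Fin 8} (h : Sat c G v p) (k : Fin 8) (e : F)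
    (hv : st c G (nb v p) = some (k, e)) : st c G v = some (k, e + sg p) := by
  rw [st_iff c hc G hG] at hv ⊢
  have h1 := h.eq
  rw [hv] at h1
  simp only at h1 ⊢
  rw [add_smul, ← add_assoc, h1, add_assoc, H111.add_self_W, add_zero]

include hc hG in
theorem Sat.st_none {v : Fin 128} {p : Fin 8} (h : Sat c G v p)
    (hv : Cube.st c G (nb v p) = none) : Cube.st c G v = none := by
  by_contra h0
  obtain ⟨⟨k, e⟩, h1⟩ := Option.ne_none_iff_exists'.1 h0
  have h2 : Cube.st c G (nb v p) = some (k, e + sg p) := by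
    rw [st_iff c hc G hG] at h1 ⊢
    rw [h.eq, h1]
    simp only
    rw [add_smul, add_assoc]
  rw [hv] at h2
  exact absurd h2 (by simp)

/-- The share of a vertex of type `1`. -/
noncomputable def sh (v : Fin 128) (p : Fin 8) : ℕ :=
  match st c G v with
  | none => 45
  | some x => shr (dd v (cw x.1) x.2) (dd (nb v p) (cw x.1) (x.2 + sg p))

theorem sh_le (v : Fin 128) (p : Fin 8) : sh c G v p ≤ 60 := by
  unfold sh
  split
  · norm_num
  · exact shr_le _ _

open Classical in
include hc hG in
theorem one_le (v : Fin 128) (hv : ty v = 1) :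
    ∑ p, (if Sat c G v p then (if ty (nb v p) = 0 then 336 else sh c G v p) else 0) ≤ 336 := by
  rcases h0 : st c G v with _ | ⟨k, e⟩
  · refine le_trans (sum_le_sum fun p _ => ?_) (loc_none v hv)
    split_ifs with h1 h2 h2
    · exfalso
      obtain ⟨k, hk⟩ := isC_iff _ ((ty_zero_iff _).1 h2)
      have h3 : st c G (nb v p) = some (k, 0) := by
        rw [st_iff c hc G hG, hk]
        simp
      rw [Sat.st c hc G hG h1 k 0 h3] at h0
      exact absurd h0 (by simp)
    · simp [sh, h0]
    · exact Nat.zero_le _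
    · exact Nat.zero_le _
  · refine le_trans (sum_le_sum fun p _ => ?_) (loc_one v hv k e)
    split_ifs with h1 h2 h3 h2 h3
    · exact le_rfl
    · exfalso
      obtain ⟨k', hk⟩ := isC_iff _ ((ty_zero_iff _).1 h2)
      have h4 : st c G (nb v p) = some (k', 0) := by
        rw [st_iff c hc G hG, hk]
        simp
      have h5 := Sat.st c hc G hG h1 k' 0 h4
      rw [h0] at h5
      have h6 := Option.some.inj h5
      simp only [Prod.mk.injEq, zero_add] at h6
      exact h3 ⟨by rw [hk, h6.1], h6.2.symm⟩
    · simp [sh, h0]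
    all_goals exact Nat.zero_le _

open Classical in
include hc hG in
theorem two_le (w : Fin 128) (hw : ty w = 2) :
    ∑ p, (if Sat c G (nb w p) p then 60 - sh c G (nb w p) p else 0) ≤ 120 := by
  rcases h0 : st c G w with _ | ⟨k, e⟩
  · refine le_trans (sum_le_sum fun p _ => (?_ : _ ≤ 15)) (by simp)
    split_ifs with h1
    · have h2 : st c G (nb w p) = none := by
        apply Sat.st_none c hc G hG h1
        rw [nb_nb]
        exact h0
      simp [sh, h2]
    · exact Nat.zero_le _
  · refine le_trans (sum_le_sum fun p _ => ?_) (loc_two w hw k e)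
    split_ifs with h1
    · have h2 : st c G (nb w p) = some (k, e + sg p) := by
        apply Sat.st c hc G hG h1
        rw [nb_nb]
        exact h0
      have h3 : ∀ a b : F, a + b + b = a := by decide
      simp only [sh, h2, nb_nb, h3]
      exact le_rfl
    · exact Nat.zero_le _

/-- Sum over the edges from the other side. -/
theorem sum_nb (f : Fin 128 → Fin 8 → ℕ) : ∑ v, ∑ p, f v p = ∑ w, ∑ p, f (nb w p) p := by
  rw [sum_comm, sum_comm (f := fun w p => f (nb w p) p)]
  refine sum_congr rfl fun p _ => ?_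
  have h1 : Function.Involutive fun v => nb v p := fun v => nb_nb v p
  exact (Equiv.sum_comp h1.toPerm fun v => f v p).symm

open Classical in
include hc hG in
theorem main_le : 12 * ∑ v, ∑ p, (if Sat c G v p then wt v p else 0) ≤ 12 * 2352 := by
  have h1 : 12 * ∑ v, ∑ p, (if Sat c G v p then wt v p else 0) =
      ∑ v, (if ty v = 1 then ∑ p, (if Sat c G v p then
        (if ty (nb v p) = 0 then 336 else sh c G v p) else 0) else 0) +
      ∑ v, ∑ p, (if ty v = 1 ∧ ty (nb v p) ≠ 0 ∧ Sat c G v p then 60 - sh c G v p else 0) := by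
    rw [mul_sum, ← sum_add_distrib]
    refine sum_congr rfl fun v _ => ?_
    by_cases hv : ty v = 1
    · rw [if_pos hv, mul_sum, ← sum_add_distrib]
      refine sum_congr rfl fun p _ => ?_
      by_cases hs : Sat c G v p
      · by_cases h0 : ty (nb v p) = 0
        · simp [wt, hs, hv, h0]
        · have := sh_le c G v p
          simp only [wt, hs, hv, h0, if_true, if_false, ne_eq, not_false_eq_true, and_self]
          omega
      · simp [hs]
    · rw [if_neg hv]
      simp [wt, hv]
  have h2 : ∑ v, (if ty v = 1 then ∑ p, (if Sat c G v p then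
      (if ty (nb v p) = 0 then 336 else sh c G v p) else 0) else 0) ≤ 64 * 336 := by
    rw [← sum_one]
    refine sum_le_sum fun v _ => ?_
    split_ifs with hv
    · exact one_le c hc G hG v hv
    · exact le_rfl
  have h3 : ∑ v, ∑ p, (if ty v = 1 ∧ ty (nb v p) ≠ 0 ∧ Sat c G v p then 60 - sh c G v p else 0) ≤
      56 * 120 := by
    rw [sum_nb, ← sum_two]
    refine sum_le_sum fun w _ => ?_
    by_cases hw : ty w = 2
    · rw [if_pos hw]
      refine le_trans (sum_le_sum fun p _ => ?_) (two_le c hc G hG w hw)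
      split_ifs with h4 h5 h5
      · exact le_rfl
      · exact absurd h4.2.2 h5
      · exact Nat.zero_le _
      · exact Nat.zero_le _
    · rw [if_neg hw]
      refine (sum_eq_zero fun p _ => ?_).le
      rw [if_neg]
      rintro ⟨h4, h5, -⟩
      rw [nb_nb] at h5
      have h6 : ty w = 1 := by
        unfold ty at h5 hw ⊢
        split_ifs at h5 hw ⊢ <;> simp_all
      exact absurd h4 (ty_nb_one w p h6)
  omega

end No

theorem cube_le {W : Type} [AddCommGroup W] [Module F W] [DecidableEq W] (c : W)
    (τ : (Fin 3 → F) → W) (g : Fin 128 → W) (hc : c ≠ 0)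
    (hτ : ∀ l l', l ≠ l' → τ l' ≠ τ l ∧ τ l' ≠ τ l + c) : cube.num c τ g ≤ 2352 := by
  classical
  have h0 : ∀ k, Sum.elim τ g (vx (cw k)) = τ (tl (cw k)) := by
    intro k
    simp [vx, isC_cw]
  have h1 := main_le c hc (fun v => Sum.elim τ g (vx v)) (by
    intro k k' hk
    have h2 : tl (cw k) ≠ tl (cw k') := fun h => hk (tl_inj _ _ h)
    simp only [h0]
    exact hτ _ _ h2)
  have h4 := Nat.le_of_mul_le_mul_left h1 (by norm_num)
  refine le_trans (le_of_eq ?_) h4
  rw [num_cube]
  refine sum_congr rfl fun v _ => sum_congr rfl fun p _ => ?_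
  simp only [Sat]
  congr

theorem cube_no : cube.No (7 / 12) := by
  intro W _ _ _ c τ g hc hτ
  have h3 : cube.num c τ g ≤ 2352 := cube_le c τ g hc hτ
  have h4 : (cube.num c τ g : ℝ) ≤ 2352 := by exact_mod_cast h3
  rw [length_cube]
  push_cast
  linarith

/-- The value of a function at the point `T`. -/
def ev (T : ℕ) (v : Fin 128) : F := if T = 0 then 0 else if (v : ℕ) / 2 ^ (T - 1) % 2 = 1 then 1
  else 0

/-- The number of a point. -/
def pt (t : Fin 3 → F) : ℕ :=
  (if t 0 = 1 then 1 else 0) + (if t 1 = 1 then 2 else 0) + (if t 2 = 1 then 4 else 0)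

theorem pt_lt (t : Fin 3 → F) : pt t < 8 := by
  unfold pt
  split_ifs <;> norm_num

theorem ev_cw : ∀ (t : Fin 3 → F) k, tl (cw k) ⬝ᵥ t = ev (pt t) (cw k) := by decide

set_option maxRecDepth 100000 in
theorem ev_nb : ∀ (T p : Fin 8), (p : ℕ) + 1 ≠ T → (p ≠ 7 ∨ (T : ℕ) ≠ 0) →
    ∀ v, ev T v + ev T (nb v p) = sg p := by decide

theorem cube_yes : cube.Yes (7 / 8) := by
  intro t
  refine ⟨ev (pt t), ?_⟩
  have h0 : ∀ v, Sum.elim (fun l : Fin 3 → F => l ⬝ᵥ t) (ev (pt t)) (vx v) = ev (pt t) v := by
    intro v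
    unfold vx
    split_ifs with h
    · obtain ⟨k, rfl⟩ := isC_iff v h
      exact ev_cw t k
    · rfl
  have h1 : 3528 ≤ cube.num (1 : F) (fun l => l ⬝ᵥ t) (ev (pt t)) := by
    have h2 := num_cube (1 : F) (fun l => l ⬝ᵥ t) (ev (pt t))
    refine le_trans ?_ (le_of_eq h2.symm)
    simp only [h0]
    obtain ⟨q, hq⟩ : ∃ q : Fin 8, ∀ p, p ≠ q → (p : ℕ) + 1 ≠ pt t ∧ (p ≠ 7 ∨ pt t ≠ 0) := by
      have : ∀ T : Fin 8, ∃ q : Fin 8, ∀ p : Fin 8, p ≠ q →
          (p : ℕ) + 1 ≠ (T : ℕ) ∧ (p ≠ 7 ∨ (T : ℕ) ≠ 0) := by decide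
      exact this ⟨pt t, pt_lt t⟩
    rw [sum_comm]
    calc 3528 = ∑ p ∈ univ.erase q, ∑ v, wt v p := by
          rw [sum_congr rfl fun p _ => sum_wt p]
          simp
      _ ≤ ∑ p ∈ univ.erase q, ∑ v, (if ev (pt t) v + ev (pt t) (nb v p) = sg p • (1 : F)
            then wt v p else 0) := by
          refine sum_le_sum fun p hp => sum_le_sum fun v _ => ?_
          have h3 := hq p (ne_of_mem_erase hp)
          rw [if_pos]
          rw [ev_nb ⟨pt t, pt_lt t⟩ p h3.1 h3.2 v]
          simp
      _ ≤ _ := sum_le_sum_of_subset (subset_univ _)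
  rw [length_cube]
  have h4 : (3528 : ℝ) ≤ (cube.num (1 : F) (fun l => l ⬝ᵥ t) (ev (pt t)) : ℝ) := by
    exact_mod_cast h1
  refine le_trans (le_of_eq ?_) h4
  norm_num

end Vale.Agent.P325.H844.Cube
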