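import Vale.Agent.P325.H111.Star

/-!
# Padding a gadget with satisfied edges, and hardness near completeness one
-/

namespace Vale.Agent.P325.H844

open Finset Vale.Agent.P325.Star

theorem _root_.Vale.Agent.P325.UGHard.mono {c s c' s' : ℝ} (h : UGHard c s) (hc : c' ≤ c)
    (hs : s ≤ s') : UGHard c' s' := by
  obtain ⟨K, hK, h⟩ := h
  refine ⟨K, hK, fun L hL => ?_⟩
  obtain ⟨f, h1, h2, h3, h4⟩ := h L hL
  exact ⟨f, h1, h2, fun x hx => hc.trans (h3 x hx), fun x hx => (h4 x hx).trans hs⟩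

/-- `u` copies of the gadget and `v` edges which are always satisfied. -/
def pad (Γ : Gad) (u v : ℕ) : Gad where
  s := Γ.s
  a := Γ.a
  E := (List.replicate u Γ.E).flatten ++ List.replicate v (Sum.inl 0, Sum.inl 0, 0)

theorem length_pad (Γ : Gad) (u v : ℕ) : (pad Γ u v).E.length = u * Γ.E.length + v := by
  simp [pad]

theorem num_pad (Γ : Gad) (u v : ℕ) {W : Type} [AddCommGroup W] [Module F W] [DecidableEq W]
    (c : W) (τ : (Fin Γ.s → F) → W) (g : Fin Γ.a → W) :
    (pad Γ u v).num c τ g = u * Γ.num c τ g + v := by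
  show List.countP (fun e => decide (Sum.elim τ g e.1 + Sum.elim τ g e.2.1 = e.2.2 • c))
    ((List.replicate u Γ.E).flatten ++ List.replicate v (Sum.inl 0, Sum.inl 0, 0)) = _
  rw [List.countP_append, List.countP_replicate, List.countP_flatten]
  simp only [List.map_replicate, List.sum_replicate, smul_eq_mul, Sum.elim_inl,
    H111.add_self_W, zero_smul, decide_true, if_true]
  rfl

theorem pad_yes {Γ : Gad} {p : ℝ} (h : Γ.Yes p) (u v : ℕ) (p' : ℝ)
    (hp : p' * (u * Γ.E.length + v) ≤ u * (p * Γ.E.length) + v) : (pad Γ u v).Yes p' := by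
  intro t
  obtain ⟨g, hg⟩ := h t
  refine ⟨g, ?_⟩
  have h1 := num_pad Γ u v (1 : F) (fun l => l ⬝ᵥ t) g
  have h2 : ((pad Γ u v).num (1 : F) (fun l => l ⬝ᵥ t) g : ℝ) =
      u * (Γ.num (1 : F) (fun l => l ⬝ᵥ t) g : ℝ) + v := by
    rw [← Nat.cast_mul, ← Nat.cast_add]
    exact_mod_cast h1
  refine le_trans ?_ (le_of_eq h2.symm)
  rw [length_pad]
  push_cast
  refine hp.trans ?_
  gcongr

theorem pad_no {Γ : Gad} {p : ℝ} (h : Γ.No p) (u v : ℕ) (p' : ℝ)
    (hp : u * (p * Γ.E.length) + v ≤ p' * (u * Γ.E.length + v)) : (pad Γ u v).No p' := by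
  intro W _ _ _ c τ g hc hτ
  have h1 := num_pad Γ u v c τ g
  have h2 : ((pad Γ u v).num c τ g : ℝ) = u * (Γ.num c τ g : ℝ) + v := by
    rw [← Nat.cast_mul, ← Nat.cast_add]
    exact_mod_cast h1
  refine le_trans (le_of_eq h2) ?_
  rw [length_pad]
  push_cast
  refine le_trans ?_ hp
  have := h W c τ g hc hτ
  gcongr

/-- Hardness from a padded gadget: completeness `1 - l (1 - p)`, soundness `1 - l (1 - q)`. -/
theorem hard_pad (Γ : Gad) (hs : 1 ≤ Γ.s) (hE : Γ.E ≠ []) (p q : ℝ) (hp1 : p ≤ 1) (hq0 : 0 ≤ q)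
    (hp : Γ.Yes p) (hq : Γ.No q) (l η : ℝ) (hl0 : 0 < l) (hl1 : l ≤ 1) (hη : 0 < η)
    (hlp : 0 ≤ 1 - l * (1 - p)) : UGHard (1 - l * (1 - p) - η) (1 - l * (1 - q) + η) := by
  have hL : 0 < (Γ.E.length : ℝ) := by
    exact_mod_cast List.length_pos_iff.2 hE
  set L : ℝ := (Γ.E.length : ℝ) with hLdef
  obtain ⟨m, hm⟩ := exists_nat_gt (2 / η)
  have hm0 : 0 < (m : ℝ) := lt_trans (by positivity) hm
  have hmL : 0 < m * L := by positivity
  set v : ℕ := ⌈(1 / l - 1) * (m * L)⌉₊ with hv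
  have hv1 : (1 / l - 1) * (m * L) ≤ v := Nat.le_ceil _
  have hv2 : (v : ℝ) < (1 / l - 1) * (m * L) + 1 := by
    refine Nat.ceil_lt_add_one (mul_nonneg ?_ hmL.le)
    rw [sub_nonneg, le_div_iff₀ hl0]
    linarith
  have hT : (1 / l - 1) * (m * L) * l = (1 - l) * (m * L) := by
    field_simp
  have h3 : (1 - l) * (m * L) ≤ v * l := by
    rw [← hT]
    gcongr
  have h4 : (v : ℝ) * l ≤ (1 - l) * (m * L) + l := by
    rw [← hT, ← add_one_mul]
    gcongr
  have hS : 0 < m * L + v := by positivity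
  have hm1 : 1 ≤ m * L * (η / 2) := by
    have h5 : 1 ≤ L := by
      rw [hLdef]
      exact_mod_cast List.length_pos_iff.2 hE
    have h6 : 1 ≤ m * (η / 2) := by
      rw [div_lt_iff₀ hη] at hm
      linarith
    calc (1 : ℝ) ≤ m * (η / 2) := h6
      _ = m * 1 * (η / 2) := by ring
      _ ≤ m * L * (η / 2) := by gcongr
  have h7 := H111.hard_of_gad (pad Γ m v) hs (by
    rw [← List.length_pos_iff, length_pad]
    have : 0 < Γ.E.length := List.length_pos_iff.2 hE
    have : 0 < m := by exact_mod_cast hm0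
    positivity) (1 - l * (1 - p)) (1 - l * (1 - q) + η / 2) hlp
    (pad_yes hp m v _ ?_) (pad_no hq m v _ ?_) (η / 2) (by positivity)
  · exact h7.mono (by linarith) (by linarith)
  · -- (1 - l(1-p)) (mL+v) ≤ m p L + v
    nlinarith [mul_nonneg (sub_nonneg.2 hp1) (sub_nonneg.2 h3)]
  · -- m q L + v ≤ (1 - l (1 - q) + η/2)(mL + v)
    have h8 : v * l * (1 - q) ≤ ((1 - l) * (m * L)) * (1 - q) + η / 2 * (m * L + v) := by
      have h9 : η / 2 * (m * L) ≤ η / 2 * (m * L + v) := by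
        have : 0 ≤ (v : ℝ) := Nat.cast_nonneg _
        gcongr
        linarith
      rcases le_total q 1 with hq1 | hq1
      · have := mul_le_mul_of_nonneg_right h4 (sub_nonneg.2 hq1)
        nlinarith
      · have := mul_le_mul_of_nonneg_right h3 (sub_nonneg.2 hq1)
        nlinarith [mul_nonneg hη.le hS.le]
    nlinarith

end Vale.Agent.P325.H844
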